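import Crest.Agent.X261.Fam13.Main
import Crest.Agent.X261.Fam11.Sum
import Crest.Agent.X261.Fam.FsD
import Crest.Agent.X261.Fam.Hol
import Crest.Agent.X261.Fam79.Lio
import Crest.Agent.X261.Fam20.E
import Crest.Agent.X261.FamG.Main

/-!
# Row 261, package FAM (helper13), part Fin: all pieces are plugged in
-/

set_option autoImplicit false

namespace Crest.Agent.X261.Fam13

theorem exStmt : Fam69.ExStmt :=
  exStmt_of (Fam11.sum_of Fam.Fs.fs) Fam79.lio Fam.hol Fam20.nrStmt

theorem famStmt : B88.FamStmt := FamG.famStmt_of exStmt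

end Crest.Agent.X261.Fam13
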