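import Crest.Agent.X261.Fam69.Defs
import Crest.Agent.X261.Fam69.Tr
import Crest.Agent.X261.Fam65.S
import Crest.Agent.T223.CovMass_25

/-!
# Row 261, package FAM (helper13), part Main: the fibre energy is constant, the limit is holomorphic

`exStmt_of : SumStmt → LioStmt → HolStmt → NrStmt → ExStmt`.
-/

set_option autoImplicit false
set_option linter.unusedSectionVars false

open Set Filter Topology MeasureTheory Matrix
open scoped ComplexConjugate ComplexOrder InnerProductSpace ContDiff NNReal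

namespace Crest.Agent.X261.Fam13

open Crest.Agent.R275.Geo Crest.Agent.R275.Core144 Crest.Agent.R273.UCov_914
open Crest.Agent.R275.EDR890 Crest.Agent.R273.Hess_333
open Crest.Agent.R273.Kah_333 Crest.Agent.R273.Fock_243
open Crest.Agent.X261.Fam Crest.Agent.X261.Fam69
open Crest.Agent.X261.Rel.Act (Rep Act)

noncomputable section

variable {n q : ℕ} {H : Type} [NormedAddCommGroup H] [InnerProductSpace ℂ H]

/-! ### elementary facts -/

theorem le_of_eta {x y : ℝ} (C : ℝ) (h : ∀ η : ℝ, 0 < η → x ≤ y + C * η) : x ≤ y := by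
  have h1 : Tendsto (fun η : ℝ => y + C * η) (𝓝[>] 0) (𝓝 (y + C * 0)) :=
    ((continuous_const.add (continuous_const.mul continuous_id)).tendsto 0).mono_left
      nhdsWithin_le_nhds
  rw [mul_zero, add_zero] at h1
  exact ge_of_tendsto h1 (eventually_nhdsWithin_of_forall h)

theorem exR {W : Type*} [Zero W] {w : Cn q → W} (hw : HasCompactSupport w) :
    ∃ R : ℝ, ∀ x, R < ‖x‖ → w x = 0 :=
  let ⟨R, _, h⟩ := hw.exists_pos_le_norm
  ⟨R, fun x hx => h x hx.le⟩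

theorem hcs_of {W : Type*} [Zero W] {w : Cn q → W} {R : ℝ} (h : ∀ x, R < ‖x‖ → w x = 0) :
    HasCompactSupport w :=
  HasCompactSupport.intro (isCompact_closedBall 0 R) fun x hx => h x (by simpa using hx)

theorem mL_inv {L : Mt q} (hL : L.det ≠ 0) (x : Cn q) : mL L⁻¹ (mL L x) = x := by
  rw [← mul_apply_eq_comp, mL, mL, ← map_mul, Matrix.nonsing_inv_mul _ hL.isUnit,
    map_one, one_apply_eq_self]

theorem norm_le_mL {L : Mt q} (hL : L.det ≠ 0) (x : Cn q) : ‖x‖ ≤ ‖mL L⁻¹‖ * ‖mL L x‖ := by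
  conv_lhs => rw [← mL_inv hL x]
  exact (mL L⁻¹).le_opNorm _

theorem hcs_mL {W : Type*} [Zero W] {L : Mt q} (hL : L.det ≠ 0) {w : Cn q → W}
    (hw : HasCompactSupport w) : HasCompactSupport fun x => w (mL L x) := by
  obtain ⟨R, hR⟩ := exR hw
  refine hcs_of (R := ‖mL L⁻¹‖ * R) fun x hx => hR _ (lt_of_not_ge fun h => ?_)
  exact absurd ((norm_le_mL hL x).trans (mul_le_mul_of_nonneg_left h (norm_nonneg _))) hx.not_ge

theorem aL_one {Y : Type*} (a : Y → Cn q) : aL 1 a = a := by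
  funext e
  rw [aL, mL, map_one, one_apply_eq_self]

theorem c1_nonneg (q : ℕ) : 0 ≤ c1 q := by unfold c1; positivity

theorem e0_near {G : Mt n} (hG : G.PosDef) (C : Mr n q) (θ θ' : Fin n → H) {s : ℝ} (hs : 0 < s) :
    |e0 G C θ - e0 G C θ'| ≤ s * e0 G C θ' + (1 + 1 / s) * e0 G C (θ - θ') := by
  have hX := Q0_psd hG C
  have h1 := en_add_smul hX.isHermitian θ' (θ - θ') 1
  rw [Complex.ofReal_one, one_smul, add_sub_cancel, re_ip_comm hX.isHermitian] at h1
  have h2 := (Complex.abs_re_le_norm _).trans (norm_ip_le hX θ' (θ - θ') s hs)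
  have h3 := en_nonneg hX (θ - θ')
  have e : 1 / (2 * s) * en (Q0 G C) (θ - θ') = 1 / s * en (Q0 G C) (θ - θ') / 2 := by
    field_simp
  unfold e0
  rw [e] at h2
  rw [abs_le] at h2 ⊢
  constructor <;> nlinarith [h2.1, h2.2]

/-- the sum of the norms of the entries -/
def nZ (Z : Cn q → Mt q) (x : Cn q) : ℝ := ∑ k, ∑ l, ‖Z x k l‖

theorem nZ_nonneg (Z : Cn q → Mt q) (x : Cn q) : 0 ≤ nZ Z x := by unfold nZ; positivity

theorem le_nZ (Z : Cn q → Mt q) (x : Cn q) (k l : Fin q) : ‖Z x k l‖ ≤ nZ Z x :=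
  (Finset.single_le_sum (f := fun l => ‖Z x k l‖) (fun _ _ => norm_nonneg _)
    (Finset.mem_univ l)).trans (Finset.single_le_sum (f := fun k => ∑ l, ‖Z x k l‖)
      (fun _ _ => by positivity) (Finset.mem_univ k))

theorem tr_le_nZ (Z : Cn q → Mt q) (x : Cn q) : |(Z x).trace.re| ≤ nZ Z x :=
  (Complex.abs_re_le_norm _).trans ((norm_sum_le _ _).trans (Finset.sum_le_sum fun k _ =>
    Finset.single_le_sum (f := fun l => ‖Z x k l‖) (fun _ _ => norm_nonneg _) (Finset.mem_univ k)))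

theorem cont_nZ {Z : Cn q → Mt q} (hZ : Continuous Z) : Continuous (nZ Z) :=
  continuous_finsetSum _ fun k _ => continuous_finsetSum _ fun l _ =>
    ((continuous_apply l).comp ((continuous_apply k).comp hZ)).norm

theorem hcs_nZ {Z : Cn q → Mt q} (hZ : HasCompactSupport Z) : HasCompactSupport (nZ Z) :=
  hZ.comp_left (g := fun Y : Mt q => ∑ k, ∑ l, ‖Y k l‖) (by simp)

theorem cont_tr {Z : Cn q → Mt q} (hZ : Continuous Z) : Continuous fun x => (Z x).trace.re :=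
  Complex.continuous_re.comp hZ.matrix_trace

section test

variable {ψ : Cn q → ℝ}

theorem sm_cu (h : ContDiff ℝ ∞ ψ) : ContDiff ℝ ∞ (cu ψ) := Complex.ofRealCLM.contDiff.comp h

theorem hcs_cu (h : HasCompactSupport ψ) : HasCompactSupport (cu ψ) :=
  h.comp_left (g := fun t : ℝ => (t : ℂ)) Complex.ofReal_zero

theorem cont_Zc (h : ContDiff ℝ ∞ ψ) (c : Fin q → ℂ) : Continuous (Zc c ψ) :=
  continuous_pi fun _ => continuous_pi fun _ =>
    continuous_const.mul (T223.Cov.contDiff_wd (sm_cu h) _).continuous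

theorem cont_hess (h : ContDiff ℝ ∞ ψ) : Continuous (hess ψ) :=
  continuous_pi fun _ => continuous_pi fun _ =>
    (T223.Cov.contDiff_wd (T223.Cov.contDiff_wd (sm_cu h) _) _).continuous

theorem wd_off {f : Cn q → ℂ} {x : Cn q} (h : f =ᶠ[𝓝 x] fun _ => 0) (s : WI q) :
    wd s f =ᶠ[𝓝 x] fun _ => 0 :=
  h.eventually_nhds.mono fun y hy => (wd_congr hy s).trans (wd_const 0 y s)

theorem cu_off {x : Cn q} (hx : x ∉ tsupport ψ) : cu ψ =ᶠ[𝓝 x] fun _ => 0 :=
  (notMem_tsupport_iff_eventuallyEq.1 hx).mono fun y hy => by simp [cu, hy]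

theorem hcs_Zc (h : HasCompactSupport ψ) (c : Fin q → ℂ) : HasCompactSupport (Zc c ψ) :=
  HasCompactSupport.intro h fun x hx => by
    ext k l
    simp [Zc, (wd_off (cu_off hx) _).self_of_nhds]

theorem hcs_hess (h : HasCompactSupport ψ) : HasCompactSupport (hess ψ) :=
  HasCompactSupport.intro h fun x hx => by
    ext k l
    simp [hess, (wd_off (wd_off (cu_off hx) _) _).self_of_nhds]

theorem int_hess (h : ContDiff ℝ ∞ ψ) (hc : HasCompactSupport ψ) :
    ∫ x, (hess ψ x).trace.re = 0 := by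
  have h1 := fun k : Fin q => T223.Cov.contDiff_wd (sm_cu h) (true, k)
  have h2 := fun k : Fin q => T223.Cov.hcs_wd (hcs_cu hc) (true, k)
  have hi : ∀ k : Fin q, Integrable (wd (false, k) (wd (true, k) (cu ψ))) := fun k =>
    (T223.Cov.contDiff_wd (h1 k) _).continuous.integrable_of_hasCompactSupport
      (T223.Cov.hcs_wd (h2 k) _)
  have h3 : ∫ x, (hess ψ x).trace = 0 := by
    change ∫ x, ∑ k, wd (false, k) (wd (true, k) (cu ψ)) x = 0
    rw [integral_finsetSum _ fun k _ => hi k]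
    exact Finset.sum_eq_zero fun k _ => T223.Cov.int_wd_zero volume (h1 k) (h2 k) _
  have h4 := integral_re (𝕜 := ℂ) (f := fun x => (hess ψ x).trace)
    (integrable_finsetSum (μ := volume) Finset.univ fun k _ => hi k)
  rw [h3] at h4
  simpa using h4

end test

/-- a cut-off function which is at least one on a ball -/
def ct (q : ℕ) (R : ℝ) (x : Cn q) : ℝ := max 0 (R + 1 - ‖x‖)

theorem cont_ct (R : ℝ) : Continuous (ct q R) :=
  continuous_const.max (continuous_const.sub continuous_norm)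

theorem hcs_ct (R : ℝ) : HasCompactSupport (ct q R) :=
  hcs_of (R := R + 1) fun _ hx => max_eq_left (by linarith)

theorem ct_nonneg (R : ℝ) (x : Cn q) : 0 ≤ ct q R x := le_max_left _ _

theorem one_le_ct {R : ℝ} {x : Cn q} (h : ‖x‖ ≤ R) : 1 ≤ ct q R x :=
  le_max_of_le_right (by linarith)

/-! ### densities -/

variable {X : Type} [TopologicalSpace X] {A : Atl n X} {G : Type} [Group G]
variable {D : MonD A G} {M : Subgroup G} {a : D.cov G → Cn q} {r : Rep M H}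
variable {θ θ' : A.ι → G → Cn n → Fin n → H}

theorem dat_aL (hd : Dat D M a) {L : Mt q} (hL : L.det ≠ 0) : Dat D M (aL L a) where
  hol p := (mL L).differentiable.comp_differentiableOn (hd.hol p)
  inv m hm e := by rw [aL, aL, hd.inv m hm]
  prop R := by
    obtain ⟨Kc, h1, h2⟩ := hd.prop (‖mL L⁻¹‖ * R)
    exact ⟨Kc, h1, fun e he => h2 e ((norm_le_mL hL _).trans
      (mul_le_mul_of_nonneg_left he (norm_nonneg _)))⟩

/-- a density -/
def Dn (D : MonD A G) (M : Subgroup G) (a : D.cov G → Cn q) (Φ : A.ι → G → Cn n → ℂ) : Prop :=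
  ∃ R, Den D M a R Φ

theorem dn_e0 (K : Kah A) (hd : Dat D M a) (h : Jt D M r θ) {w : Cn q → ℝ} (hw : Continuous w)
    (hc : HasCompactSupport w) : Dn D M a fun i v z => ((w (rd D a i v z) *
      e0 (K.g i ((A.e i).symm z)) (Cf (rd D a i v) z) (θ i v z) : ℝ) : ℂ) :=
  let ⟨R, hR⟩ := exR hc
  ⟨R, den_en hd (tn_Q0 K hd) h hw hR⟩

theorem dn_ee (K : Kah A) (hd : Dat D M a) (h : Jt D M r θ) {w : Cn q → ℝ} (hw : Continuous w)
    (hc : HasCompactSupport w) (ε : ℝ) : Dn D M a fun i v z => ((w (rd D a i v z) *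
      ee (K.g i ((A.e i).symm z)) (Cf (rd D a i v) z) ε (θ i v z) : ℝ) : ℂ) :=
  let ⟨R, hR⟩ := exR hc
  ⟨R, den_en hd (tn_Qe K hd ε) h hw hR⟩

theorem dn_W (K : Kah A) (hd : Dat D M a) (h : Jt D M r θ) {Z : Cn q → Mt q} (hZ : Continuous Z)
    (hc : HasCompactSupport Z) {ε : ℝ} (hε : 0 < ε) (c : ℂ) : Dn D M a fun i v z => c *
      ip (Wm (gE (K.g i ((A.e i).symm z)) (Cf (rd D a i v) z) ε)
        (Cf (rd D a i v) z * Z (rd D a i v z) * (Cf (rd D a i v) z)ᴴ)) (θ i v z) (θ i v z) := by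
  obtain ⟨R, hR⟩ := exR hc
  have h1 := den_ip hd (tn_Wm K hd hε hZ) h h (R := R + 1)
    (w := fun x => ((min 1 (ct q R x) : ℝ) : ℂ))
    (Complex.continuous_ofReal.comp (continuous_const.min (cont_ct R))) fun x hx => by
      rw [ct, max_eq_left (by linarith), min_eq_right zero_le_one, Complex.ofReal_zero]
  refine ⟨R + 1, (h1.congr fun i v z _ => ?_).smul c⟩
  by_cases h2 : ‖rd D a i v z‖ ≤ R
  · rw [min_eq_left (one_le_ct h2), Complex.ofReal_one, one_mul]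
  · rw [hR _ (lt_of_not_ge h2), Matrix.mul_zero, Matrix.zero_mul, Wm_zero]
    simp [ip_eq]

variable [Finite A.ι] [Countable G] [T2Space X] (K : Kah A)

theorem lin3 (hd : Dat D M a) {Φ₁ Φ₂ Φ₃ Φ₄ : A.ι → G → Cn n → ℂ} (h1 : Dn D M a Φ₁)
    (h2 : Dn D M a Φ₂) (h3 : Dn D M a Φ₃) (h4 : Dn D M a Φ₄) (α β γ : ℝ)
    (e : ∀ i v, ∀ z ∈ (A.e i).target, (Φ₁ i v z).re ≤
      α * (Φ₂ i v z).re + β * (Φ₃ i v z).re + γ * (Φ₄ i v z).re) :
    (IM D K M Φ₁).re ≤ α * (IM D K M Φ₂).re + β * (IM D K M Φ₃).re + γ * (IM D K M Φ₄).re := by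
  obtain ⟨R₁, h1⟩ := h1
  obtain ⟨R₂, h2⟩ := h2
  obtain ⟨R₃, h3⟩ := h3
  obtain ⟨R₄, h4⟩ := h4
  set R := max (max R₁ R₂) (max R₃ R₄)
  replace h1 := h1.mono (R' := R) (le_max_of_le_left (le_max_left _ _))
  replace h2 := (h2.mono (R' := R) (le_max_of_le_left (le_max_right _ _))).smul α
  replace h3 := (h3.mono (R' := R) (le_max_of_le_right (le_max_left _ _))).smul β
  replace h4 := (h4.mono (R' := R) (le_max_of_le_right (le_max_right _ _))).smul γ
  have := re_IM_mono K hd h1 ((h2.add h3).add h4) fun i v z hz => by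
    simpa only [Complex.add_re, Complex.re_ofReal_mul] using e i v z hz
  rwa [IM_add K hd (h2.add h3) h4, IM_add K hd h2 h3, IM_smul, IM_smul, IM_smul, Complex.add_re,
    Complex.add_re, Complex.re_ofReal_mul, Complex.re_ofReal_mul, Complex.re_ofReal_mul] at this

theorem gpos (i : A.ι) {z : Cn n} (hz : z ∈ (A.e i).target) :
    (K.g i ((A.e i).symm z)).PosDef := K.pos i _ ((A.e i).map_target hz)

/-- the horizontal test forms see the vertical energy -/
theorem RG_near (hd : Dat D M a) (h : Jt D M r θ) {Z : Cn q → Mt q} (hZ : Continuous Z)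
    (hc : HasCompactSupport Z) {χ : Cn q → ℝ} (hχ : Continuous χ) (hχc : HasCompactSupport χ)
    (hle : ∀ x, nZ Z x ≤ χ x) {ε : ℝ} (hε : 0 < ε) :
    |(RG D K M a Z ε θ).re - E0 D K M a (fun x => (Z x).trace.re) θ| ≤
      c1 q * (Ee D K M a χ ε θ - E0 D K M a χ θ) := by
  have d1 := dn_W K hd h hZ hc hε ((ε ^ q / ε : ℝ) : ℂ)
  have d2 := dn_e0 K hd h (cont_tr hZ) (hc.comp_left (g := fun Y : Mt q => Y.trace.re) (by simp))
  have d3 := dn_ee K hd h hχ hχc ε
  have d4 := dn_e0 K hd h hχ hχc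
  have e := fun i v z (hz : z ∈ (A.e i).target) => abs_le.1 ((Complex.abs_re_le_norm _).trans
    (pw1 (gpos K i hz) (Cf (rd D a i v) z) hε ((nZ_nonneg Z _).trans (hle _))
      (fun k l => (le_nZ Z (rd D a i v z) k l).trans (hle _)) (θ i v z)))
  simp only [Complex.sub_re, Complex.re_mul_ofReal] at e
  have h1 := lin3 K hd d1 d2 d3 d4 1 (c1 q) (-c1 q) fun i v z hz => by
    simp only [Complex.ofReal_re]; linarith [(e i v z hz).2]
  have h2 := lin3 K hd d2 d1 d3 d4 1 (c1 q) (-c1 q) fun i v z hz => by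
    simp only [Complex.ofReal_re]; linarith [(e i v z hz).1]
  rw [IM_smul] at h1 h2
  unfold Fam69.RG E0 Ee
  rw [abs_le]
  constructor <;> linarith

theorem exc_mono (hd : Dat D M a) (h : Jt D M r θ) {ψ χ : Cn q → ℝ} (hψ : Continuous ψ)
    (hψc : HasCompactSupport ψ) (hχ : Continuous χ) (hχc : HasCompactSupport χ)
    (hle : ∀ x, ψ x ≤ χ x) {ε : ℝ} (hε : 0 < ε) :
    Ee D K M a ψ ε θ - E0 D K M a ψ θ ≤ Ee D K M a χ ε θ - E0 D K M a χ θ := by
  have h1 := lin3 K hd (dn_ee K hd h hψ hψc ε) (dn_e0 K hd h hψ hψc) (dn_ee K hd h hχ hχc ε)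
    (dn_e0 K hd h hχ hχc) 1 1 (-1) fun i v z hz => by
      simp only [Complex.ofReal_re]
      nlinarith [mul_nonneg (sub_nonneg.2 (hle (rd D a i v z)))
        (sub_nonneg.2 (e0_le_ee (gpos K i hz) (Cf (rd D a i v) z) hε (θ i v z)))]
  unfold E0 Ee
  linarith

theorem E0_near (hd : Dat D M a) (h : Jt D M r θ) (h' : Jt D M r θ') {w χ : Cn q → ℝ}
    (hw : Continuous w) (hwc : HasCompactSupport w) (hχ : Continuous χ)
    (hχc : HasCompactSupport χ) (hle : ∀ x, |w x| ≤ χ x) {s : ℝ} (hs : 0 < s) :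
    |E0 D K M a w θ - E0 D K M a w θ'| ≤ s * E0 D K M a χ θ' +
      (1 + 1 / s) * E0 D K M a χ fun i v z => θ i v z - θ' i v z := by
  have d1 := dn_e0 K hd h hw hwc
  have d2 := dn_e0 K hd h' hw hwc
  have d3 := dn_e0 K hd h' hχ hχc
  have d4 := dn_e0 K hd (h.sub h') hχ hχc
  have e := fun i v z (hz : z ∈ (A.e i).target) => abs_le.1 ((abs_mul _ _).trans_le (mul_le_mul
    (hle (rd D a i v z)) (e0_near (gpos K i hz) (Cf (rd D a i v) z) (θ i v z) (θ' i v z) hs)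
    (abs_nonneg _) ((abs_nonneg _).trans (hle _))))
  have h1 := lin3 K hd d1 d2 d3 d4 1 s (1 + 1 / s) fun i v z hz => by
    simp only [Complex.ofReal_re]; linarith [(e i v z hz).2]
  have h2 := lin3 K hd d2 d1 d3 d4 1 s (1 + 1 / s) fun i v z hz => by
    simp only [Complex.ofReal_re]; linarith [(e i v z hz).1]
  unfold E0
  rw [abs_le]
  constructor <;> linarith

theorem E0_aL (hd : Dat D M a) (L : Mt q) (w : Cn q → ℝ) :
    E0 D K M (aL L a) w θ = ‖L.det‖ ^ 2 * E0 D K M a (fun x => w (mL L x)) θ := by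
  unfold E0
  rw [← Complex.re_ofReal_mul, ← IM_smul]
  refine congrArg Complex.re (IM_congr K fun i v z hz => ?_)
  have h1 : Cf (rd D (aL L a) i v) z = Cf (rd D a i v) z * Lᵀ := by
    rw [← Cf_mL L (rd D a i v z)]
    exact Cf_comp (mL L).differentiableAt
      ((hol_rd hd i v).differentiableAt ((A.e i).open_target.mem_nhds hz))
  rw [h1, e0, Q0_mul_right, en_smul, Matrix.det_transpose, ← Complex.ofReal_mul, mul_left_comm]
  rfl

attribute [local instance] mZ bZ cZ in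
/-- the integral over a compact part of a chart is at most the total integral -/
theorem set_le_IM (hd : Dat D M a) {R : ℝ} {Φ : A.ι → G → Cn n → ℂ} (h : Den D M a R Φ)
    (e : ∀ i v, ∀ z ∈ (A.e i).target, 0 ≤ (Φ i v z).re) (j : A.ι) (v : G) {Kc : Set (Cn n)}
    (hK : IsCompact Kc) (hs : Kc ⊆ (A.e j).target) :
    (∫ z in Kc, Φ j v z).re ≤ (IM D K M Φ).re := by
  set c := D.chart j (v : G ⧸ M) with hc
  have hE : MeasurableSet (c.symm '' Kc) :=
    (hK.image_of_continuousOn (c.continuousOn_symm.mono hs)).measurableSet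
  have h1 := setIntegral_chart (R273.Vol_333.volK (R273.RMan4_798.pullKah D (G ⧸ M) K))
    (j, (v : G ⧸ M)) ((h.continuous_gl K).aestronglyMeasurable.indicator hE)
  have h2 : ∫ z in Kc, Φ j v z = ∫ y in c.source ∩ c.symm '' Kc, gl D K M Φ y ∂mu D K M := by
    rw [← setIntegral_indicator hE]
    conv_lhs => rw [← inter_eq_right.2 hs, ← setIntegral_indicator hK.measurableSet]
    refine Eq.trans (setIntegral_congr_fun (A.e j).open_target.measurableSet fun z hz => ?_) h1.symm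
    have hx := (A.e j).map_target hz
    change _ = (K.g j ((A.e j).symm z)).det.re • (c.symm '' Kc).indicator (gl D K M Φ) (c.symm z)
    by_cases hz' : z ∈ Kc
    · rw [indicator_of_mem hz', indicator_of_mem (mem_image_of_mem _ hz')]
      change _ = _ • gl D K M Φ (D.pt j (v : G ⧸ M) ((A.e j).symm z))
      rw [h.gl_pt K v hx, (A.e j).right_inv hz, Complex.real_smul, ← det_ofReal (K.pos j _ hx),
        mul_div_cancel₀ _ (K.pos j _ hx).det_pos.ne']
    · rw [indicator_of_notMem hz', indicator_of_notMem, smul_zero]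
      rintro ⟨y, hy, e1⟩
      exact hz' (c.symm.injOn (hs hy) hz e1 ▸ hy)
  rw [h2, re_IM K hd h]
  refine le_trans (le_of_eq (integral_re (h.integrable K hd).integrableOn).symm)
    (setIntegral_le_integral (h.integrable K hd).re (ae_of_all _ fun y => ?_))
  change 0 ≤ (gl D K M Φ y).re
  rw [re_gl]
  exact div_nonneg (e _ _ _ ((A.e _).map_source (T223.Hm.ix_mem _)))
    (det_re_pos (K.pos _ _ (T223.Hm.ix_mem _))).le

/-- local energies are bounded by global ones -/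
theorem loc_le (hd : Dat D M a) (h : Jt D M r θ) {χ : Cn q → ℝ} (hχ : Continuous χ)
    (hχc : HasCompactSupport χ) (h0 : ∀ x, 0 ≤ χ x) (i : A.ι) (v : G) {Kc : Set (Cn n)}
    (hK : IsCompact Kc) (hs : Kc ⊆ (A.e i).target) (h1 : ∀ z ∈ Kc, 1 ≤ χ (rd D a i v z)) :
    ∫ z in Kc, e0 (K.g i ((A.e i).symm z)) (Cf (rd D a i v) z) (θ i v z) ≤ E0 D K M a χ θ := by
  obtain ⟨R, d⟩ := dn_e0 K hd h hχ hχc
  have h2 := set_le_IM K hd d (fun i v z hz => by
    rw [Complex.ofReal_re]; exact mul_nonneg (h0 _) (e0_nonneg (gpos K i hz) _ _)) i v hK hs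
  rw [integral_complex_ofReal, Complex.ofReal_re] at h2
  refine le_trans (integral_mono_of_nonneg ?_ ?_ ?_) h2
  · exact (ae_restrict_iff' hK.measurableSet).2 (ae_of_all _ fun z hz =>
      e0_nonneg (gpos K i (hs hz)) _ _)
  · exact ((Complex.continuous_re.comp_continuousOn (d.cont i v)).mono hs).integrableOn_compact hK
  · exact (ae_restrict_iff' hK.measurableSet).2 (ae_of_all _ fun z hz =>
      le_mul_of_one_le_left (e0_nonneg (gpos K i (hs hz)) _ _) (h1 z hz))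

theorem exists_ct (hd : Dat D M a) (i : A.ι) (v : G) {Kc : Set (Cn n)} (hK : IsCompact Kc)
    (hs : Kc ⊆ (A.e i).target) : ∃ R : ℝ, ∀ z ∈ Kc, 1 ≤ ct q R (rd D a i v z) :=
  let ⟨R, hR⟩ := hK.exists_bound_of_continuousOn ((hol_rd hd i v).continuousOn.mono hs)
  ⟨R, fun z hz => one_le_ct (hR z hz)⟩

variable {b : M → H} {f : ℕ → D.cov G → H} {ν : Measure (Cn q)}

theorem near (hd : Dat D M a) (h : Nr D K M a r b f ν) {L : Mt q} (hL : L.det ≠ 0) (R : ℝ)
    {χ : Cn q → ℝ} (hχ : Continuous χ) (hχc : HasCompactSupport χ) (h0 : ∀ x, 0 ≤ χ x) {η : ℝ}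
    (hη : 0 < η) : ∃ ε : ℝ, 0 < ε ∧ ε ≤ 1 ∧ ∃ F : ℕ → D.cov G → H,
      (∀ j, Eqv D M r b (F j)) ∧ SqG D K (aL L a) r ε R F ∧ ∀ᶠ j in atTop,
        Ee D K M (aL L a) χ ε (tj D (F j)) - E0 D K M (aL L a) χ (tj D (F j)) ≤ η ∧
        (∀ w : Cn q → ℝ, Continuous w → (∀ x, |w x| ≤ χ x) →
          |E0 D K M (aL L a) w (tj D (F j)) - ‖L.det‖ ^ 2 * ∫ x, w (mL L x) ∂ν| ≤ η) ∧
        ∀ᶠ k in atTop, E0 D K M (aL L a) χ
          (fun i v z => tj D (F j) i v z - tj D (f k) i v z) ≤ η := by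
  have hlim : ∀ w : Cn q → ℝ, Continuous w → HasCompactSupport w →
      Tendsto (fun k => E0 D K M (aL L a) w (tj D (f k))) atTop
        (𝓝 (‖L.det‖ ^ 2 * ∫ x, w (mL L x) ∂ν)) := fun w hw hc => by
    simp only [E0_aL K hd]
    exact (h.lim _ (hw.comp (mL L).continuous) (hcs_mL hL hc)).const_mul _
  set B := ‖L.det‖ ^ 2 * ∫ x, χ (mL L x) ∂ν with hB
  obtain ⟨s, hs, h1⟩ := Mol.small (abs_nonneg B) (half_pos hη)
  have hs' : 0 < 1 + 1 / s := by positivity
  obtain ⟨η', hη', h2⟩ := Mol.small hs'.le (half_pos hη)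
  replace h1 := h1 s le_rfl
  replace h2 := h2 η' le_rfl
  have h3 : η' ≤ η := by
    have : 0 < 1 / s * η' := by positivity
    nlinarith
  obtain ⟨ε, e0, e1, F, hF, hS, h4, h5⟩ := h.apx L hL R χ hχ hχc h0 η' hη'
  refine ⟨ε, e0, e1, F, hF, hS, ?_⟩
  filter_upwards [h4, h5] with j h4 h5
  refine ⟨h4.trans h3, fun w hw hle => ?_, h5.mono fun k hk => hk.trans h3⟩
  have hwc : HasCompactSupport w := hχc.mono fun x hx h6 => hx (by
    have := hle x
    rw [h6] at this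
    exact abs_nonpos_iff.1 this)
  have h7 := le_of_tendsto_of_tendsto ((tendsto_const_nhds.sub (hlim w hw hwc)).abs)
    (((hlim χ hχ hχc).const_mul s).add (tendsto_const_nhds (x := (1 + 1 / s) * η')))
    (h5.mono fun k hk => (E0_near K (dat_aL hd hL) (jt_th (hF j)) (jt_th (h.eqv k)) hw hwc hχ hχc
      hle hs).trans (add_le_add le_rfl (mul_le_mul_of_nonneg_left hk hs'.le)))
  refine h7.trans ?_
  nlinarith [mul_le_mul_of_nonneg_left (le_abs_self B) hs.le]

/-- the first half of `SumStmt` -/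
def M1 (D : MonD A G) (K : Kah A) (M : Subgroup G) (a : D.cov G → Cn q) (r : Rep M H) (b : M → H)
    (ψ : Cn q → ℝ) (R : ℝ) : Prop :=
  ∀ (ε : ℝ) (F : ℕ → D.cov G → H), 0 < ε → ε ≤ 1 → (∀ j, Eqv D M r b (F j)) →
    SqG D K a r ε R F → ∀ (c : Fin q → ℂ) (t κ η : ℝ), ∑ j, ‖c j‖ ^ 2 ≤ 1 → 0 < t → 0 < κ →
    0 < η → ∀ᶠ j in atTop, ‖Fam69.RG D K M a (Zc c ψ) ε (tj D (F j))‖ ≤
      t / 2 * Ee D K M a ψ ε (tj D (F j)) +
      (1 / (4 * t) + κ) * (Fam69.RG D K M a (hess ψ) ε (tj D (F j))).re +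
      (n + 2) / (2 * κ) * (Ee D K M a ψ ε (tj D (F j)) - E0 D K M a ψ (tj D (F j))) + η

/-- the main inequality -/
theorem main_ineq (hd : Dat D M a) (h : Nr D K M a r b f ν) [IsLocallyFiniteMeasure ν] {L : Mt q}
    (hL : L.det ≠ 0) {ψ : Cn q → ℝ} (hψ : ContDiff ℝ ∞ ψ) (hc : HasCompactSupport ψ)
    (h0 : ∀ x, 0 ≤ ψ x) {R : ℝ} (hM : M1 D K M (aL L a) r b ψ R) (k : Fin q) {t : ℝ}
    (ht : 0 < t) : ‖∫ x, wd (true, k) (cu ψ) (mL L x) ∂ν‖ ≤ t / 2 * ∫ x, ψ (mL L x) ∂ν +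
      1 / (4 * t) * ∫ x, (hess ψ (mL L x)).trace.re ∂ν := by
  have hd' := dat_aL hd hL
  set I := ∫ x, wd (true, k) (cu ψ) (mL L x) ∂ν with hI
  obtain ⟨u, hu, hu'⟩ := Complex.exists_norm_eq_mul_self I
  set c : Fin q → ℂ := Pi.single k u with hcu
  have hc1 : ∑ j, ‖c j‖ ^ 2 ≤ 1 := by
    rw [Finset.sum_eq_single k (fun j _ hj => by simp [hcu, hj]) (by simp)]
    simp [hcu, hu]
  have htr : ∀ x, (Zc c ψ x).trace = u * wd (true, k) (cu ψ) x := fun x => by
    rw [Matrix.trace, Finset.sum_eq_single k (fun j _ hj => by simp [hcu, hj, Zc]) (by simp)]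
    simp [hcu, Zc]
  have hint : Integrable (fun x => wd (true, k) (cu ψ) (mL L x)) ν :=
    ((T223.Cov.contDiff_wd (sm_cu hψ) _).continuous.comp
      (mL L).continuous).integrable_of_hasCompactSupport
      (hcs_mL hL (T223.Cov.hcs_wd (hcs_cu hc) _))
  have hI' : ∫ x, (Zc c ψ (mL L x)).trace.re ∂ν = ‖I‖ := by
    simp only [htr]
    have h1 := integral_re (hint.const_mul u)
    rw [integral_const_mul, ← hI] at h1
    refine h1.trans ?_
    rw [← hu']
    exact Complex.ofReal_re _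
  set χ : Cn q → ℝ := fun x => ψ x + nZ (Zc c ψ) x + nZ (hess ψ) x with hχ
  have c1χ : Continuous χ :=
    (hψ.continuous.add (cont_nZ (cont_Zc hψ c))).add (cont_nZ (cont_hess hψ))
  have c2χ : HasCompactSupport χ := (hc.add (hcs_nZ (hcs_Zc hc c))).add (hcs_nZ (hcs_hess hc))
  have n1 := nZ_nonneg (Zc c ψ)
  have n2 := nZ_nonneg (hess ψ)
  have l0 : ∀ x, ψ x ≤ χ x := fun x => by simp only [hχ]; linarith [n1 x, n2 x]
  have l1 : ∀ x, nZ (Zc c ψ) x ≤ χ x := fun x => by simp only [hχ]; linarith [h0 x, n2 x]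
  have l2 : ∀ x, nZ (hess ψ) x ≤ χ x := fun x => by simp only [hχ]; linarith [h0 x, n1 x]
  set d := ‖L.det‖ ^ 2 with hdd
  have hd0 : 0 < d := by have := norm_pos_iff.2 hL; positivity
  set P := ∫ x, ψ (mL L x) ∂ν
  set Q := ∫ x, (hess ψ (mL L x)).trace.re ∂ν
  have hq := c1_nonneg q
  have key : d * ‖I‖ ≤ t / 2 * (d * P) + 1 / (4 * t) * (d * Q) := by
    refine le_of_eta (d * Q) fun κ hκ => le_of_eta (t + (1 / (4 * t) + κ) * (c1 q + 1) +
      (n + 2) / (2 * κ) + 1 + (c1 q + 1)) fun η hη => ?_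
    obtain ⟨ε, e0, e1, F, hF, hS, h1⟩ := near K hd h hL R c1χ c2χ
      (fun x => (h0 x).trans (l0 x)) hη
    obtain ⟨j, ⟨h2, h3, -⟩, h4⟩ := (h1.and (hM ε F e0 e1 hF hS c t κ η hc1 ht hκ hη)).exists
    have a0 := abs_le.1 (h3 ψ hψ.continuous fun x => (abs_of_nonneg (h0 x)).trans_le (l0 x))
    have a1 := abs_le.1 (h3 _ (cont_tr (cont_Zc hψ c)) fun x => (tr_le_nZ _ x).trans (l1 x))
    have a2 := abs_le.1 (h3 _ (cont_tr (cont_hess hψ)) fun x => (tr_le_nZ _ x).trans (l2 x))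
    rw [hI'] at a1
    have b0 := (exc_mono K hd' (jt_th (hF j)) hψ.continuous hc c1χ c2χ l0 e0).trans h2
    have b1 := abs_le.1 ((RG_near K hd' (jt_th (hF j)) (cont_Zc hψ c) (hcs_Zc hc c) c1χ c2χ l1
      e0).trans (mul_le_mul_of_nonneg_left h2 hq))
    have b2 := abs_le.1 ((RG_near K hd' (jt_th (hF j)) (cont_hess hψ) (hcs_hess hc) c1χ c2χ l2
      e0).trans (mul_le_mul_of_nonneg_left h2 hq))
    have b3 := Complex.re_le_norm (Fam69.RG D K M (aL L a) (Zc c ψ) ε (tj D (F j)))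
    have m1 := mul_le_mul_of_nonneg_left
      (show Ee D K M (aL L a) ψ ε (tj D (F j)) ≤ d * P + 2 * η by linarith [a0.2])
      (half_pos ht).le
    have m2 := mul_le_mul_of_nonneg_left
      (show (Fam69.RG D K M (aL L a) (hess ψ) ε (tj D (F j))).re ≤ d * Q + (c1 q + 1) * η by
        linarith [a2.2, b2.2]) (show 0 ≤ 1 / (4 * t) + κ by positivity)
    have m3 := mul_le_mul_of_nonneg_left b0 (show (0 : ℝ) ≤ (n + 2) / (2 * κ) by positivity)
    nlinarith [a1.1, b1.1]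
  have : d * ‖I‖ ≤ d * (t / 2 * P + 1 / (4 * t) * Q) := by linarith
  exact le_of_mul_le_mul_left this hd0

theorem exists_ball {ψ : Cn q → ℝ} (hc : HasCompactSupport ψ) :
    ∃ R : ℝ, tsupport ψ ⊆ Metric.ball 0 R := hc.isCompact.isBounded.subset_ball 0

/-- the weak `∂̄` derivatives tend to zero -/
theorem db_lim (hd : Dat D M a) (h : Nr D K M a r b f ν) {E : ℝ≥0}
    (hν : ν = E • (volume : Measure (Cn q))) {ψ : Cn q → ℝ} (hψ : ContDiff ℝ ∞ ψ)
    (hc : HasCompactSupport ψ) {R : ℝ} (i : A.ι) (v : G) {χ : Cn n → ℝ} (hχ : ContDiff ℝ ∞ χ)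
    (hχc : HasCompactSupport χ) (hs : tsupport χ ⊆ (A.e i).target) {C : ℝ} (hC : 0 ≤ C)
    (hM : ∀ (ε : ℝ) (F : ℕ → D.cov G → H), 0 < ε → ε ≤ 1 → (∀ j, Eqv D M r b (F j)) →
      SqG D K a r ε R F → ∀ η : ℝ, 0 < η → ∀ᶠ j in atTop, ∀ (s : Fin n) (I : FI n),
        ‖∫ z, wd (true, s) (cu χ) z • Sl (rd D a i v) (rd D (F j) i v) z I‖ ^ 2 ≤
          C * (Fam69.RG D K M a (hess ψ) ε (tj D (F j))).re + η) (s : Fin n) (I : FI n) :
    Tendsto (fun k => ∫ z, wd (true, s) (cu χ) z • Sl (rd D a i v) (rd D (f k) i v) z I) atTop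
      (𝓝 0) := by
  refine Fam65.db_of_close K (hol_rd hd i v) (fun k => Fam65.sm_rd (h.eqv k).sm i v)
    (T223.Cov.contDiff_wd (sm_cu hχ) _).continuous hχc hs
    (fun z hz => (wd_off (cu_off hz) _).self_of_nhds) I fun δ hδ => ?_
  obtain ⟨R', hR'⟩ := exists_ct hd i v hχc hs
  have hq := c1_nonneg q
  obtain ⟨η, hη, h1⟩ := Mol.small (show 0 ≤ C * (c1 q + 1) + 1 by positivity) hδ
  replace h1 := h1 η le_rfl
  set χ' : Cn q → ℝ := fun x => ct q R' x + nZ (hess ψ) x with hχ'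
  have c1χ : Continuous χ' := (cont_ct R').add (cont_nZ (cont_hess hψ))
  have c2χ : HasCompactSupport χ' := (hcs_ct R').add (hcs_nZ (hcs_hess hc))
  have l0 : ∀ x, 0 ≤ χ' x := fun x => add_nonneg (ct_nonneg _ _) (nZ_nonneg _ _)
  have l2 : ∀ x, nZ (hess ψ) x ≤ χ' x := fun x => le_add_of_nonneg_left (ct_nonneg _ _)
  obtain ⟨ε, e0, e1, F, hF, hS, h2⟩ := near K hd h (L := 1) (by simp) R c1χ c2χ l0 hη
  rw [aL_one] at hS h2
  obtain ⟨j, ⟨h3, h4, h5⟩, h6⟩ := (h2.and (hM ε F e0 e1 hF hS η hη)).exists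
  have a2 := abs_le.1 (h4 _ (cont_tr (cont_hess hψ)) fun x => (tr_le_nZ _ x).trans (l2 x))
  have a3 : ∫ x, (hess ψ (mL 1 x)).trace.re ∂ν = 0 := by
    simp only [mL, map_one, one_apply_eq_self]
    rw [hν, integral_smul_nnreal_measure, int_hess hψ hc, smul_zero]
  rw [a3] at a2
  have b2 := abs_le.1 ((RG_near K hd (jt_th (hF j)) (cont_hess hψ) (hcs_hess hc) c1χ c2χ l2
    e0).trans (mul_le_mul_of_nonneg_left h3 hq))
  have m2 := mul_le_mul_of_nonneg_left
    (show (Fam69.RG D K M a (hess ψ) ε (tj D (F j))).re ≤ (c1 q + 1) * η by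
      linarith [a2.2, b2.2]) hC
  have h7 : η ≤ δ := by
    have : 0 ≤ C * (c1 q + 1) * η := by positivity
    nlinarith
  refine ⟨rd D (F j) i v, Fam65.sm_rd (hF j).sm i v, by nlinarith [h6 s I],
    h5.mono fun k hk => le_trans ?_ (hk.trans h7)⟩
  exact loc_le K hd ((jt_th (hF j)).sub (jt_th (h.eqv k))) c1χ c2χ l0 i v hχc hs fun z hz =>
    (hR' z hz).trans (le_add_of_nonneg_right (nZ_nonneg _ _))

omit [T2Space X] [Finite A.ι] [Countable G] K in
/-- **EX** -/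
theorem exStmt_of (hS : SumStmt) (hL : LioStmt) (hH : HolStmt) (hN : NrStmt) : ExStmt := by
  intro n q X _ _ _ A _ P K G _ _ D M a hd H _ _ _ α
  obtain ⟨f, ν, hν, h⟩ := hN n q X A P K G D M a hd H α
  obtain ⟨E, hE⟩ := hL q ν fun L hL ψ hψ hc h0 k t ht => by
    obtain ⟨R, hR⟩ := exists_ball hc
    exact main_ineq K hd h hL hψ hc h0
      (hS n q X A P K G D M _ (dat_aL hd hL) H α.toRep α.b ψ R hψ h0 hR).1 k ht
  obtain ⟨S, h1, h2⟩ := Fam65.isMin_of hH K hd h.eqv (fun i v Kc hs hK η hη => by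
    obtain ⟨R, hR⟩ := exists_ct hd i v hK hs
    obtain ⟨N, hN⟩ := h.cau _ (cont_ct R) (hcs_ct R) (ct_nonneg R) η hη
    exact ⟨N, fun k hk l hl => (loc_le K hd ((jt_th (h.eqv k)).sub (jt_th (h.eqv l))) (cont_ct R)
      (hcs_ct R) (ct_nonneg R) i v hK hs hR).trans (hN k hk l hl)⟩) (fun i v z₀ hz => by
    let ψ : ContDiffBump (rd D a i v z₀) := ⟨1, 2, one_pos, one_lt_two⟩
    obtain ⟨R, hR⟩ := exists_ball ψ.hasCompactSupport
    obtain ⟨V, hV, h3⟩ := (hS n q X A P K G D M a hd H α.toRep α.b ψ R ψ.contDiff ψ.nonneg'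
      hR).2 i v z₀ hz (ψ.pos_of_mem_ball (Metric.mem_ball_self ψ.rOut_pos))
    refine ⟨V ∩ (A.e i).target, inter_mem hV ((A.e i).open_target.mem_nhds hz),
      fun χ c1 c2 c3 s I => ?_⟩
    obtain ⟨C, hC, h4⟩ := h3 χ c1 (c3.trans inter_subset_left)
    exact db_lim K hd h hE ψ.contDiff ψ.hasCompactSupport i v c1 c2 (c3.trans inter_subset_right)
      hC h4 s I) h.el0
  refine ⟨f, S, E, E.2, h.eqv, h1, h2, fun ψ hψ hc => ?_⟩
  have h3 := h.lim ψ hψ hc
  rwa [hE, integral_smul_nnreal_measure] at h3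

end

end Crest.Agent.X261.Fam13
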